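import Vale.Agent.P220Z.Top.Pre
import Vale.Agent.P220Z.Rig.Main

/-!
The nearby Lagrangian conjecture is false.
-/

namespace Vale.Agent.Results.P220.ADisproof

open Vale.Agent.P220.R2.H57 Vale.Agent.P220Z.Top

/-- There are a closed connected manifold `Q` and a closed connected embedded exact Lagrangian
`L ⊂ T*Q` that is not Hamiltonian isotopic to the zero section. -/
theorem result :
    ∃ (N n : ℕ) (Q : Set (EuclideanSpace ℝ (Fin N)))
      (L : Set (EuclideanSpace ℝ (Fin N) × EuclideanSpace ℝ (Fin N))),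
      IsClosedManifold n Q ∧ IsExactLagrangian n Q L ∧
        (∀ z ∈ L, ∀ u ∈ Tan L z, ∀ v ∈ Tan L z, om u v = 0) ∧ ¬ HamIsoG Q L :=
  counter_of_A Vale.Agent.P220Z.Rig.stThA

end Vale.Agent.Results.P220.ADisproof
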