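import Vale.Agent.P220Z.Top.Pre
import Vale.Agent.P220Z.Rig.Main
import Vale.Agent.P220Z.Abs.Flow
import Vale.Agent.P220Z.Abs.Stmt

/-!
The nearby Lagrangian conjecture is false, stated for the manifolds of Mathlib.
-/

open Set
open scoped ContDiff Manifold

namespace Vale.Agent.Results.P220.AManifolds

open Vale.Agent.P220Z Vale.Agent.P220Z.Mf

theorem flow_iff {E Q : Type} [NormedAddCommGroup E] [NormedSpace ℝ E] [TopologicalSpace Q]
    [ChartedSpace E Q] [IsManifold 𝓘(ℝ, E) ∞ Q] (H : ℝ × Cot E Q → ℝ)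
    (φ : ℝ → Cot E Q → Cot E Q) : IsFlow (IC E) (lam E Q) H φ ↔ Abs.IsFlow H φ := by
  refine exists_congr fun X => and_congr_right' (and_congr_right' (forall₃_congr fun z t _ =>
    ⟨fun ⟨D, h1, h2⟩ => h1.congr_mfderiv (ContinuousLinearMap.ext fun a => ?_),
      fun h => ⟨_, h, one_smul ℝ _⟩⟩))
  exact (congrArg D (mul_one (show ℝ from a)).symm).trans
    ((D.map_smul (show ℝ from a) (1 : ℝ)).trans (congrArg _ h2))

/-- There is a closed connected smooth manifold `Q` such that `T*Q` contains a closed connected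
exact Lagrangian submanifold that is not Hamiltonian isotopic to the zero section, while every
compactly supported Hamiltonian on `T*Q` has a flow. -/
theorem result :
    ∃ (n : ℕ) (Q : Type) (_ : TopologicalSpace Q) (_ : T2Space Q) (_ : CompactSpace Q)
      (_ : ConnectedSpace Q) (_ : ChartedSpace (EuclideanSpace ℝ (Fin n)) Q)
      (_ : IsManifold (𝓡 n) ∞ Q),
      HasExotic (EuclideanSpace ℝ (Fin n)) Q ∧ HasFlows (EuclideanSpace ℝ (Fin n)) Q := by
  obtain ⟨N, n, S, L, h1, h2, -, h3⟩ := Top.counter_of_A Rig.stThA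
  obtain ⟨Q, _, _, _, _, _, _, M, _, _, _, _, _, _, ι, h4, h5, h6⟩ :=
    Abs.transfer_flow (finrank_euclideanSpace_fin (𝕜 := ℝ)) h1 h2 h3
  exact ⟨n, Q, _, ‹_›, ‹_›, ‹_›, _, ‹_›, ⟨M, _, ‹_›, ‹_›, ‹_›, _, ‹_›, ι,
    ⟨h4.1, h4.2, h4.3, h4.4, h4.5⟩,
    fun ⟨H, φ, a, b, c⟩ => h5 ⟨H, φ, ⟨a.1, a.2⟩, (flow_iff H φ).1 b, c⟩⟩,
    fun H a => (h6 H ⟨a.1, a.2⟩).imp fun φ => (flow_iff H φ).2⟩

end Vale.Agent.Results.P220.AManifolds
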